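import Mathlib.AlgebraicTopology.SimplicialSet.Subdivision
import Mathlib.AlgebraicTopology.SimplicialSet.CategoryWithFibrations
import Mathlib.AlgebraicTopology.ModelCategory.Basic
import Mathlib.CategoryTheory.Presentable.LocallyPresentable
import Mathlib.Data.ENat.Basic
import Mathlib.Algebra.BigOperators.Ring.Finset
import Mathlib.Data.Fintype.BigOperators

/-!
Statement-level definitions for the second hand-in of problem P213 (kept short).
-/

open CategoryTheory HomotopicalAlgebra Simplicial SSet.modelCategoryQuillen

namespace Vale.Agent.P213.SX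

/-- Small strict `n`-categories, `n` finite or `⊤`, in one-sorted form: the elements are the
cells of all dimensions (a cell is identified with its identities), `d false k` and `d true k`
are the `k`-dimensional source and target, `cmp k` is composition along `k`-cells (used for
composable cells only), and the cells above dimension `n` are identities. -/
structure NCat (n : ℕ∞) where
  C : Type
  d : Bool → ℕ → C → C
  cmp : ℕ → C → C → C
  fin x : ∃ k, d false k x = x
  dd a b j k x : d a j (d b k x) = if j < k then d a j x else d b k x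
  src k x y : d true k x = d false k y → d false k (cmp k x y) = d false k x
  tgt k x y : d true k x = d false k y → d true k (cmp k x y) = d true k y
  dcomp a j k x y : k < j → d true k x = d false k y →
    d a j (cmp k x y) = cmp k (d a j x) (d a j y)
  idl k x : cmp k (d false k x) x = x
  idr k x : cmp k x (d true k x) = x
  asc k x y z : d true k x = d false k y → d true k y = d false k z →
    cmp k (cmp k x y) z = cmp k x (cmp k y z)
  inter j k x y z w : j < k → d true k x = d false k y → d true k z = d false k w →
    d true j x = d false j z → cmp j (cmp k x y) (cmp k z w) = cmp k (cmp j x z) (cmp j y w)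
  dim k x : n ≤ (k : ℕ) → d false k x = x

variable {n : ℕ∞}

/-- Strict functors. -/
def IsFun {X Y : NCat n} (f : X.C → Y.C) : Prop :=
  (∀ a k x, f (X.d a k x) = Y.d a k (f x)) ∧
  ∀ k x y, X.d true k x = X.d false k y → f (X.cmp k x y) = Y.cmp k (f x) (f y)

/-- Strict functors, bundled. -/
structure Fun (X Y : NCat n) where
  toFun : X.C → Y.C
  isFun : IsFun toFun

theorem isFun_id (X : NCat n) : IsFun fun x : X.C => x :=
  ⟨fun _ _ _ => rfl, fun _ _ _ _ => rfl⟩

theorem Fun.isFun_comp {X Y Z : NCat n} (f : Fun X Y) (g : Fun Y Z) :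
    IsFun fun x => g.toFun (f.toFun x) :=
  ⟨fun a k x => (congrArg g.toFun (f.2.1 a k x)).trans (g.2.1 a k _), fun k x y h =>
    (congrArg g.toFun (f.2.2 k x y h)).trans (g.2.2 k _ _ (by rw [← f.2.1, ← f.2.1, h]))⟩

/-- The identity functor. -/
def Fun.one (X : NCat n) : Fun X X := ⟨_, isFun_id X⟩

/-- Composition of strict functors. -/
def Fun.mul {X Y Z : NCat n} (f : Fun X Y) (g : Fun Y Z) : Fun X Z := ⟨_, f.isFun_comp g⟩

theorem Fun.one_mul {X Y : NCat n} (f : Fun X Y) : (Fun.one X).mul f = f := rfl

theorem Fun.mul_one {X Y : NCat n} (f : Fun X Y) : f.mul (Fun.one Y) = f := rfl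

theorem Fun.mul_assoc {W X Y Z : NCat n} (f : Fun W X) (g : Fun X Y) (h : Fun Y Z) :
    (f.mul g).mul h = f.mul (g.mul h) := rfl

instance : Category (NCat n) where
  Hom := Fun
  id := Fun.one
  comp := Fun.mul
  id_comp := Fun.one_mul
  comp_id := Fun.mul_one
  assoc := Fun.mul_assoc

/-- The cells of Street's `m`-th oriental, as tables of chains of the `m`-simplex:
`coef false s` and `coef true s` are the coefficients of the face `s` in the source part and in
the target part of its dimension, and (lower target part) - (lower source part) is the boundary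
of both parts one dimension up. -/
structure O (m : ℕ) where
  coef : Bool → Finset (Fin (m + 1)) → ℕ
  empty a : coef a ∅ = 0
  aug a : ∑ i, coef a {i} = 1
  bdry a t : t ≠ ∅ → (coef true t : ℤ) - coef false t =
    ∑ j ∈ tᶜ, (-1) ^ (t.filter (· < j)).card * (coef a (insert j t) : ℤ)

/-- `y` is the `k`-source or `k`-target of `x`. -/
def IsBd {m : ℕ} (a : Bool) (k : ℕ) (x y : O m) : Prop := ∀ b s,
  y.coef b s = if s.card ≤ k then x.coef b s else if s.card = k + 1 then x.coef a s else 0

/-- Strict functors from the `m`-th oriental to `X`. The composite along the `k`-cell `w` of `x`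
and `y` is `z = x - w + y`. -/
def IsSimplex (X : NCat n) {m : ℕ} (f : O m → X.C) : Prop :=
  (∀ a k x y, IsBd a k x y → f y = X.d a k (f x)) ∧
  ∀ k x y z w, IsBd true k x w → IsBd false k y w →
    (∀ a s, z.coef a s + w.coef a s = x.coef a s + y.coef a s) → f z = X.cmp k (f x) (f y)

/-- The `m`-simplices of a simplicial set. -/
abbrev Smp (K : SSet.{0}) (m : ℕ) : Type := Δ[m] ⟶ K

/-- `N` is the Street nerve: `m`-simplices of `N.obj X` are the same as strict functors from the
`m`-th oriental to `X`, naturally in `X` and in `m`. -/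
def IsStreetNerve {D : Type 1} [Category.{0} D] (U : D → NCat n)
    (H : ∀ X Y : D, (X ⟶ Y) → (U X).C → (U Y).C) (N : D ⥤ SSet.{0}) : Prop :=
  ∃ ev : ∀ X m, Smp (N.obj X) m → O m → (U X).C,
    (∀ X m, Set.BijOn (ev X m) Set.univ {f | IsSimplex (U X) f}) ∧
    (∀ X Y φ m s x, ev Y m (s ≫ N.map φ) x = H X Y φ (ev X m s x)) ∧
    ∀ X m k (θ : ⦋k⦌ ⟶ ⦋m⦌) s x y,
      (∀ a t, y.coef a t = ∑ u with u.image θ.toOrderHom = t ∧ u.card = t.card, x.coef a u) →
      ev X k (SSet.stdSimplex.map θ ≫ s) x = ev X m s y

/-- Weak homotopy equivalences of simplicial sets: the composites of a map with the left lifting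
property against Kan fibrations and a map with the right lifting property against the
boundary inclusions. -/
def whe : MorphismProperty SSet.{0} := fun X Y f => ∃ (Z : SSet.{0}) (j : X ⟶ Z) (p : Z ⟶ Y),
  J.rlp.llp j ∧ I.rlp p ∧ j ≫ p = f

section

variable {D : Type 1} [Category.{0} D]

/-- The three classes form a model structure. -/
def IsModel (cof w fib : MorphismProperty D) : Prop :=
  ∃ M : ModelCategory D,
    @cofibrations D _ M.categoryWithCofibrations = cof ∧
    @weakEquivalences D _ M.categoryWithWeakEquivalences = w ∧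
    @fibrations D _ M.categoryWithFibrations = fib

/-- Left and right properness. -/
def IsProper (cof w fib : MorphismProperty D) : Prop := ∀ A B A' B' t l r b,
  (IsPushout (t : A ⟶ B) (l : A ⟶ A') (r : B ⟶ B') b → cof t → w l → w r) ∧
  (IsPullback t l r b → fib b → w r → w l)

/-- Quillen equivalences between simplicial sets and `D`. -/
def IsQuillenEquivalence {L : SSet.{0} ⥤ D} {R : D ⥤ SSet.{0}} (adj : L ⊣ R)
    (cof w : MorphismProperty D) : Prop :=
  (∀ K K' (i : K ⟶ K'), Mono i → cof (L.map i) ∧ (whe i → w (L.map i))) ∧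
  ∀ K Y (f : L.obj K ⟶ Y), w f ↔ whe (adj.unit.app K ≫ R.map f)

variable (N : D ⥤ SSet.{0})

/-- Thomason weak equivalences. -/
def thW : MorphismProperty D := whe.inverseImage N

/-- Thomason fibrations. -/
def thF : MorphismProperty D := J.rlp.inverseImage (N ⋙ SSet.ex ⋙ SSet.ex)

/-- Thomason cofibrations. -/
def thC : MorphismProperty D := (thF N ⊓ thW N).llp

/-- The Kan-Quillen classes and the Thomason classes form model structures, the latter is proper
and combinatorial (`D` is locally presentable, and the images of the boundary inclusions and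
of the horn inclusions are generating cofibrations and generating trivial cofibrations), `N`
has a left adjoint, and for every left adjoint `c` the adjunction `c Sd² ⊣ Ex² N` is a Quillen
equivalence. -/
def IsThomason : Prop :=
  IsModel (.monomorphisms SSet.{0}) whe J.rlp ∧ IsModel (thC N) (thW N) (thF N) ∧
  IsProper (thC N) (thW N) (thF N) ∧ IsLocallyPresentable.{0} D ∧
  N.IsRightAdjoint ∧ ∀ c (h : c ⊣ N), IsQuillenEquivalence
    ((SSet.sdExAdjunction.comp SSet.sdExAdjunction).comp h) (thC N) (thW N) ∧
    (I.map ((SSet.sd ⋙ SSet.sd) ⋙ c)).rlp = thF N ⊓ thW N ∧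
    (J.map ((SSet.sd ⋙ SSet.sd) ⋙ c)).rlp = thF N

end

end Vale.Agent.P213.SX
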